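import Vale.Agent.P241.St.Defs
import Vale.Agent.P241.Final.Ctx
import Vale.Agent.P241.KR.Defs
import Vale.Agent.P241.BD.Defs
import Vale.Agent.P093.N.SymPow
import Vale.Agent.P093.N.Young

/-!
# P241, version R: the statements of the non-equivariant blocks

`S : Susp T`, `X : Ctx S` (the common model of `MU`, `Final/Ctx.lean`).

* `IsVT X.D p t k x` : `x ∈ π_{2k} MU` is `m v_t^N`, `p ∤ m`.
* `VV X p t v` : the pointed map `v : A⁺ → C⁺` (`A⁺` a sphere, `C` a finite cell space) represents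
  `m v_t^N` through a map `θ : C → MU ⊗ P`, `P` a sphere.
* `HasRk K Y e o` : `K_* Y` is free over `K_*` on `e` even and `o` odd generators (`KR/Defs.lean`).
* `InjK K f`, `ZeroK K f` : `f` is injective, zero on `K_*`.
* The statements of the blocks: `NilStmt`, `SkelStmt`, `SkelRkStmt`, `VtStmt`, `StageStmt`,
  `YoungStmt`, `TypeStmt`.
-/

open CategoryTheory MonoidalCategory Limits Pretriangulated
open Vale.Agent.P251.St Vale.Agent.P251.St.SHCat Vale.Agent.P241.St Vale.Agent.P241.Final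
open Vale.Agent.P251.I Vale.Agent.P251.T Vale.Agent.P251.M Vale.Agent.P251.F
open Vale.Agent.P251.S hiding Acyclic

noncomputable section

namespace Vale.Agent.P241.R

variable {T : SHCat} {S : Susp T}

/-! ### The class of maps `v` -/

section MU

/-- `x ∈ π_{2k} MU` is of the form `m v_t^N` with `p ∤ m`; here `v_t` is the coefficient of
`x^(p^t)` in the `p`-series. -/
def IsVT (D : MUData T.C) (p t : ℕ) (k : ℤ) (x : (stdEven T.C).S k ⟶ D.R) : Prop :=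
  ∃ m N : ℕ, ¬ p ∣ m ∧
    HRing.of (stdEven T.C) D.R k x = (m : HRing (stdEven T.C) D.R) * (vv p t D.law) ^ N

/-- The pointed map `v : A⁺ → C⁺` represents `m v_t^N ∈ π_{2k} MU`, `p ∤ m`: `A` is homeomorphic to
some `ℝ^a`, and the composite of `v` with a map `θ : C → MU ⊗ P`, `P` a sphere of dimension `r`, is
`m v_t^N` (`a = 2k + r`). -/
def VV (X : Ctx S) (p t : ℕ) {A C : Space} (v : Map A C) : Prop :=
  (∃ a : ℕ, Nonempty (A.carrier ≃ₜ (Fin a → ℝ))) ∧ FC C ∧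
    ∃ (k : ℤ) (x : (stdEven T.C).S k ⟶ X.D.R) (P : T.C) (r : ℤ) (_ : Nonempty (P ≅ (𝟙_ T.C)⟦r⟧))
      (θ : S.obj C ⟶ X.D.R ⊗ P) (e : S.obj A ≅ (stdEven T.C).S k ⊗ P),
      IsVT X.D p t k x ∧ S.map v ≫ θ = e.hom ≫ x ▷ P

end MU

/-! ### Ranks -/

section Rk

/-- `f` is injective on `K_*`. -/
def InjK (K : T.C) {X Y : T.C} (f : X ⟶ Y) : Prop :=
  ∀ (n : ℤ) (y : (𝟙_ T.C)⟦n⟧ ⟶ K ⊗ X), y ≫ K ◁ f = 0 → y = 0

/-- `f` is zero on `K_*`. -/
def ZeroK (K : T.C) {X Y : T.C} (f : X ⟶ Y) : Prop :=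
  ∀ (n : ℤ) (y : (𝟙_ T.C)⟦n⟧ ⟶ K ⊗ X), y ≫ K ◁ f = 0

/-- `K_* Y` is free over `K_*` on `e` generators of even degree and `o` generators of odd
degree. -/
def HasRk (K : RingA T) (Y : T.C) (e o : ℕ) : Prop :=
  ∃ (ι : Type) (_ : Fintype ι) (b : KR.KBasis K.obj Y ι), b.ev = e ∧ b.od = o

end Rk

/-! ### The blocks -/

section Blocks

variable (S) (p : ℕ)

/-- Block NIL: `K(j)_* Y = 0` for `j < h` implies that some `m v_i^L`, `p ∤ m`, is zero on
`Y → MU ⊗ Y`, for all `i < h`. -/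
def NilStmt (X : Ctx S) : Prop := ∀ (K : ℕ → RingA T), (∀ i, IsMoravaK S p i (K i)) →
  ∀ (Y : Space), FC Y → ∀ h : ℕ, (∀ j < h, Acyclic (K j).obj (S.obj Y)) → ∀ i < h,
    ∃ (k : ℤ) (x : (stdEven T.C).S k ⟶ X.D.R), IsVT X.D p i k x ∧ x ▷ S.obj Y = 0

/-- Block BD1 + count: skeleta. -/
def SkelStmt (X : Ctx S) : Prop := ∀ d : ℕ, ∃ (s : Multiset ℤ) (B : T.C) (i : B ⟶ X.D.R),
  BD.IsSkel X.D.R d s i ∧ s.card = BD.pc d

/-- Block BD2 (a), (b): the skeleta have `K`-homology in even degrees, of rank the number of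
cells, and it is embedded in the one of `MU`. -/
def SkelRkStmt (X : Ctx S) : Prop := ∀ (n : ℕ) (K : RingA T), IsMoravaK S p n K →
  ∀ (d : ℕ) (s : Multiset ℤ) (B : T.C) (i : B ⟶ X.D.R), BD.IsSkel X.D.R d s i →
    HasRk K B s.card 0 ∧ InjK K.obj i

/-- Block BD2 (c), (d): multiplication by `m v_n^N` on `MU` is injective on `K(n)_*`, and
multiplication by `v_t`, `t < n`, is zero on `K(n)_*`. -/
def VtStmt (X : Ctx S) : Prop := ∀ (n : ℕ) (K : RingA T), IsMoravaK S p n K →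
  (∀ (k : ℤ) (x : (stdEven T.C).S k ⟶ X.D.R), IsVT X.D p n k x →
    InjK K.obj (x ▷ X.D.R ≫ MonObj.mul)) ∧
  ∀ t < n, ZeroK K.obj ((X.D.vel p t) ▷ X.D.R ≫ MonObj.mul)

/-- Output of block BD3 for a map `v` of class `VV`: for every `ρ` there are finite cell spaces
`P`, `Q` and maps `μ : (C × P)⁺ → Q⁺`, `f = μ (v × 1) : (A × P)⁺ → Q⁺` such that the `K(j)`-ranks of
`A × P`, `Q` are `r`, `r'` (all generators in one and the same parity), for all `j`, such that `f`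
is injective on `K(t)_*`, and such that `2 ρ (r' - r) + 1 ≤ r`. -/
def GoodStage (K : ℕ → RingA T) (t : ℕ) {A C : Space} (v : Map A C) (ρ : ℕ) : Prop :=
  ∃ (P Q : Space) (μ : Map (C.prod P) Q) (f : Map (A.prod P) Q) (r r' : ℕ),
    FC P ∧ FC Q ∧ (∀ a x, f.toFun (smash a x) = μ.toFun (smash (v.toFun a) x)) ∧
    ((∀ j, HasRk (K j) (S.obj (A.prod P)) r 0 ∧ HasRk (K j) (S.obj Q) r' 0) ∨
      ∀ j, HasRk (K j) (S.obj (A.prod P)) 0 r ∧ HasRk (K j) (S.obj Q) 0 r') ∧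
    InjK (K t).obj (S.map f) ∧ 2 * ρ * (r' - r) + 1 ≤ r ∧ r ≤ r'

/-- Block BD3 (with BD1, BD2, growth). -/
def StageStmt (X : Ctx S) : Prop := ∀ (K : ℕ → RingA T), (∀ i, IsMoravaK S p i (K i)) →
  ∀ (t : ℕ) {A C : Space} (v : Map A C), VV X p t v → ∀ ρ : ℕ, GoodStage S K t v ρ

open Vale.Agent.P093.SymPow Vale.Agent.P093.N.Young in
/-- the map `c - h` on the tensor power of `X`, `c` the Young symmetrizer, `c² = h c` -/
def youngMap (R : ℕ) (X : T.C) : tpow X (M p R) ⟶ tpow X (M p R) :=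
  let c : tpow X (M p R) ⟶ tpow X (M p R) := permAlg X (M p R) (Y p R)
  c - nY p R • 𝟙 (tpow X (M p R))

/-- Block YOUNG in `T`: the cone of `c - h` is `K`-acyclic if the total rank of `K_* P` is
`≤ (R - 1) / 2`, and is not `K`-acyclic if the even rank is `≥ R`. -/
def YoungStmt : Prop := ∀ (n : ℕ) (K : RingA T), IsMoravaK S p n K → ∀ (P : Space), FC P →
  ∀ (e o : ℕ), HasRk K (S.obj P) e o → ∀ (R : ℕ) (Z : T.C) (g : _ ⟶ Z) (h : Z ⟶ _),
    Triangle.mk (youngMap p R (S.obj P)) g h ∈ distTriang T.C →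
    (2 * (e + o) + 1 ≤ R → Acyclic K.obj Z) ∧ (R ≤ e → ¬ Acyclic K.obj Z)

/-- Block START: finite cell spaces of type `n`. -/
def TypeStmt : Prop := ∀ K : ℕ → RingA T, (∀ i, IsMoravaK S p i (K i)) → ∀ n : ℕ,
  ∃ Y : Space, FC Y ∧ (∀ j < n, Acyclic (K j).obj (S.obj Y)) ∧ ¬ Acyclic (K n).obj (S.obj Y)

end Blocks

end Vale.Agent.P241.R
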