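import Vale.Agent.P241.R.TSide
import Vale.Agent.P241.H808.Null
import Vale.Agent.P251.St.OfFunctor

/-!
# P241, version R: closure properties of the class `VV`

* `VV.one` : the identity of the point.
* `VV.prod` : products.
* `VV.ident` : the identity of `ℝⁿ`.
* `VV.susp` : the product with the identity of `ℝⁿ`.
* `VV.homeo` : the source is replaced by a homeomorphic space, `VV.homeoR` : the target.
* `tclass X p t : H808.TClass` : the class of maps in the equivariant files.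
-/

open CategoryTheory MonoidalCategory Limits Pretriangulated MonObj
open Vale.Agent.P251.St Vale.Agent.P251.St.SHCat Vale.Agent.P241.St Vale.Agent.P241.Final
open Vale.Agent.P251.I Vale.Agent.P251.T Vale.Agent.P251.M Vale.Agent.P251.F
open Vale.Agent.P251.S hiding Acyclic

noncomputable section

namespace Vale.Agent.P241.R

variable {T : SHCat} {S : Susp T}

/-! ### Spaces -/

theorem fc_homeo {X Y : Space} (h : FC X) (e : X.carrier ≃ₜ Y.carrier) : FC Y :=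
  (fc_iff Y).mpr (((fc_iff X).mp h).of_homeo (X := toLC X) (Y := toLC Y) e)

theorem fc_of_rn {A : Space} (h : ∃ a : ℕ, Nonempty (A.carrier ≃ₜ (Fin a → ℝ))) : FC A := by
  obtain ⟨a, ⟨e⟩⟩ := h
  exact fc_homeo (FC.sph a) e.symm

theorem rn_prod {A B : Space} (hA : ∃ a : ℕ, Nonempty (A.carrier ≃ₜ (Fin a → ℝ)))
    (hB : ∃ b : ℕ, Nonempty (B.carrier ≃ₜ (Fin b → ℝ))) :
    ∃ c : ℕ, Nonempty ((A.prod B).carrier ≃ₜ (Fin c → ℝ)) := by
  obtain ⟨a, ⟨e⟩⟩ := hA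
  obtain ⟨b, ⟨f⟩⟩ := hB
  exact ⟨a + b, ⟨(e.prodCongr f).trans (Fin.appendHomeomorph a b)⟩⟩

/-- the pointed map of a homeomorphism -/
def homeoMap {X Y : Space} (e : X.carrier ≃ₜ Y.carrier) : Map X Y :=
  ofHom (Vale.Agent.P251.G.LC.ofHomeo (X := toLC X) (Y := toLC Y) e).hom

@[simp] theorem homeoMap_pt {X Y : Space} (e : X.carrier ≃ₜ Y.carrier) (x : X.carrier) :
    (homeoMap e).toFun (Space.pt x) = Space.pt (e x) := rfl

theorem homeoMap_comp {X Y Z : Space} (e : X.carrier ≃ₜ Y.carrier) (f : Y.carrier ≃ₜ Z.carrier)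
    (x : X.Pt) : (homeoMap f).toFun ((homeoMap e).toFun x) = (homeoMap (e.trans f)).toFun x := by
  induction x using OnePoint.rec with
  | infty => rw [(homeoMap e).map_infty, (homeoMap f).map_infty, (homeoMap _).map_infty]
  | coe x => rfl

theorem homeoMap_refl {X : Space} (x : X.Pt) : (homeoMap (Homeomorph.refl X.carrier)).toFun x = x := by
  induction x using OnePoint.rec with
  | infty => exact (homeoMap _).map_infty
  | coe x => rfl

/-- the isomorphism of suspension spectra given by a homeomorphism -/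
def homeoIso (S : Susp T) {X Y : Space} (hX : FC X) (e : X.carrier ≃ₜ Y.carrier) :
    S.obj X ≅ S.obj Y where
  hom := S.map (homeoMap e)
  inv := S.map (homeoMap e.symm)
  hom_inv_id := by
    refine (S.map_comp (homeoMap e) (homeoMap e.symm) (homeoMap (e.trans e.symm)) hX
      (fc_homeo hX e) hX (funext fun x => (homeoMap_comp e e.symm x).symm)).symm.trans ?_
    refine S.map_id _ hX (funext fun x => ?_)
    rw [Homeomorph.self_trans_symm]
    exact homeoMap_refl x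
  inv_hom_id := by
    refine (S.map_comp (homeoMap e.symm) (homeoMap e) (homeoMap (e.symm.trans e)) (fc_homeo hX e)
      hX (fc_homeo hX e) (funext fun x => (homeoMap_comp e.symm e x).symm)).symm.trans ?_
    refine S.map_id _ (fc_homeo hX e) (funext fun x => ?_)
    rw [Homeomorph.symm_trans_self]
    exact homeoMap_refl x

/-! ### The classes `m v_t^N` -/

section IsVT

variable {D : MUData T.C} {p t : ℕ}

theorem IsVT.one (hp : p ≠ 1) : IsVT D p t 0 ((stdEven T.C).zero.inv ≫ η[D.R]) := by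
  refine ⟨1, 0, fun h => hp (Nat.dvd_one.mp h), ?_⟩
  rw [of_one]
  simp

theorem IsVT.mul (hp : p.Prime) {k k' l : ℤ} (h : k + k' = l) {x : (stdEven T.C).S k ⟶ D.R}
    {x' : (stdEven T.C).S k' ⟶ D.R} (hx : IsVT D p t k x) (hx' : IsVT D p t k' x') :
    IsVT D p t l (EvenSpheres.gmul h x x') := by
  obtain ⟨m, N, hm, e⟩ := hx
  obtain ⟨m', N', hm', e'⟩ := hx'
  refine ⟨m * m', N + N', fun hd => ?_, ?_⟩
  · rcases (Nat.Prime.dvd_mul hp).mp hd with h1 | h1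
    · exact hm h1
    · exact hm' h1
  · rw [← of_mul_of h, e, e', Nat.cast_mul, pow_add]
    ring

end IsVT

/-! ### Closure properties -/

/-- the exchange of two factors is an isomorphism -/
def exchIso {C : Type*} [Category C] [MonoidalCategory C] [BraidedCategory C] (X₁ X₂ Y₁ Y₂ : C) :
    (X₁ ⊗ X₂) ⊗ Y₁ ⊗ Y₂ ≅ (X₁ ⊗ Y₁) ⊗ X₂ ⊗ Y₂ :=
  ⟨tensorμ X₁ X₂ Y₁ Y₂, tensorδ X₁ X₂ Y₁ Y₂, tensorμ_tensorδ X₁ X₂ Y₁ Y₂,
    tensorδ_tensorμ X₁ X₂ Y₁ Y₂⟩

theorem sph_tensor {P P' : T.C} {r r' : ℤ} (h : Nonempty (P ≅ (𝟙_ T.C)⟦r⟧))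
    (h' : Nonempty (P' ≅ (𝟙_ T.C)⟦r'⟧)) : Nonempty (P ⊗ P' ≅ (𝟙_ T.C)⟦r + r'⟧) :=
  ⟨(h.some ⊗ᵢ h'.some) ≪≫ tensorUnitShiftIso ((𝟙_ T.C)⟦r⟧) r' ≪≫
    ((shiftFunctorAdd T.C r r').app (𝟙_ T.C)).symm⟩

section

variable {X : Ctx S} {p t : ℕ}

theorem VV.prod (hp : p.Prime) {A C A' C' : Space} {v : Map A C} {v' : Map A' C'}
    (hv : VV X p t v) (hv' : VV X p t v') (w : Map (A.prod A') (C.prod C'))
    (hw : ∀ a a', w.toFun (smash a a') = smash (v.toFun a) (v'.toFun a')) : VV X p t w := by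
  obtain ⟨hA, hC, k, x, P, r, hP, θ, e, hx, hθ⟩ := hv
  obtain ⟨hA', hC', k', x', P', r', hP', θ', e', hx', hθ'⟩ := hv'
  have fA := fc_of_rn hA
  have fA' := fc_of_rn hA'
  have i1 : IsIso (S.mul A A') := S.mul_isIso fA fA'
  have i2 : IsIso (S.mul C C') := S.mul_isIso hC hC'
  have nat : S.mul A A' ≫ S.map w = (S.map v ⊗ₘ S.map v') ≫ S.mul C C' :=
    S.mul_natural v v' w fA hC fA' hC' hw
  refine ⟨rn_prod hA hA', fc_prod hC hC', k + k', EvenSpheres.gmul rfl x x', P ⊗ P', r + r',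
    sph_tensor hP hP',
    inv (S.mul C C') ≫ (θ ⊗ₘ θ') ≫ tensorμ X.D.R P X.D.R P' ≫ μ[X.D.R] ▷ (P ⊗ P'),
    (asIso (S.mul A A')).symm ≪≫ (e ⊗ᵢ e') ≪≫ exchIso _ P _ P' ≪≫
      whiskerRightIso ((stdEven T.C).mu k k' (k + k') rfl) (P ⊗ P'), hx.mul hp rfl hx', ?_⟩
  rw [← cancel_epi (S.mul A A')]
  have e1 : S.mul A A' ≫ S.map w ≫ inv (S.mul C C') ≫ (θ ⊗ₘ θ') ≫ tensorμ X.D.R P X.D.R P' ≫
      μ[X.D.R] ▷ (P ⊗ P') = (e.hom ⊗ₘ e'.hom) ≫ (x ▷ P ⊗ₘ x' ▷ P') ≫ tensorμ X.D.R P X.D.R P' ≫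
        μ[X.D.R] ▷ (P ⊗ P') := by
    rw [reassoc_of% nat, IsIso.hom_inv_id_assoc, tensorHom_comp_tensorHom_assoc,
      tensorHom_comp_tensorHom_assoc, hθ, hθ']
  rw [e1]
  have e2 : (x ▷ P ⊗ₘ x' ▷ P') ≫ tensorμ X.D.R P X.D.R P' =
      tensorμ _ P _ P' ≫ (x ⊗ₘ x') ▷ (P ⊗ P') := by
    have := tensorμ_natural x (𝟙 P) x' (𝟙 P')
    simpa using this
  rw [reassoc_of% e2]
  simp only [Iso.trans_hom, Iso.symm_hom, asIso_inv, tensorIso_hom, whiskerRightIso_hom, exchIso,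
    Category.assoc, IsIso.hom_inv_id_assoc, EvenSpheres.gmul, EvenSpheres.ext, comp_whiskerRight,
    hom_inv_whiskerRight_assoc]

theorem VV.homeo {A A' C : Space} {v : Map A C} (hv : VV X p t v)
    (f : A'.carrier ≃ₜ A.carrier) (w : Map A' C)
    (hw : ∀ a, w.toFun a = v.toFun ((homeoMap f).toFun a)) : VV X p t w := by
  obtain ⟨hA, hC, k, x, P, r, hP, θ, e, hx, hθ⟩ := hv
  have fA := fc_of_rn hA
  obtain ⟨a, ⟨g⟩⟩ := hA
  have fA' : FC A' := fc_homeo fA f.symm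
  refine ⟨⟨a, ⟨f.trans g⟩⟩, hC, k, x, P, r, hP, θ, homeoIso S fA' f ≪≫ e, hx, ?_⟩
  rw [Iso.trans_hom, Category.assoc, ← hθ]
  have h1 : S.map w = S.map (homeoMap f) ≫ S.map v :=
    S.map_comp (homeoMap f) v w fA' fA hC (funext hw)
  rw [h1, Category.assoc]
  rfl

theorem VV.homeoR {A C C' : Space} {v : Map A C} (hv : VV X p t v)
    (f : C.carrier ≃ₜ C'.carrier) (w : Map A C')
    (hw : ∀ a, w.toFun a = (homeoMap f).toFun (v.toFun a)) : VV X p t w := by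
  obtain ⟨hA, hC, k, x, P, r, hP, θ, e, hx, hθ⟩ := hv
  have fA := fc_of_rn hA
  have fC' : FC C' := fc_homeo hC f
  refine ⟨hA, fC', k, x, P, r, hP, (homeoIso S hC f).inv ≫ θ, e, hx, ?_⟩
  have h1 : S.map w = S.map v ≫ (homeoIso S hC f).hom :=
    S.map_comp v (homeoMap f) w fA hC fC' (funext hw)
  rw [h1, Category.assoc, Iso.hom_inv_id_assoc, hθ]

/-- the suspension spectrum of `ℝⁿ` -/
def rnIso (S : Susp T) (n : ℕ) : S.obj (Rn n) ≅ (𝟙_ T.C)⟦(n : ℤ)⟧ :=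
  sphIso S.toSpaceFunctor n

theorem VV.ident (hp : p ≠ 1) {A : Space} {n : ℕ} (f : A.carrier ≃ₜ (Fin n → ℝ)) (w : Map A A)
    (hw : ∀ a, w.toFun a = a) : VV X p t w := by
  have fA : FC A := fc_of_rn ⟨n, ⟨f⟩⟩
  refine ⟨⟨n, ⟨f⟩⟩, fA, 0, (stdEven T.C).zero.inv ≫ η[X.D.R], S.obj A, n,
    ⟨homeoIso S fA (Y := Rn n) f ≪≫ rnIso S n⟩, (λ_ (S.obj A)).inv ≫ η[X.D.R] ▷ S.obj A,
    (λ_ (S.obj A)).symm ≪≫ whiskerRightIso (stdEven T.C).zero (S.obj A), IsVT.one hp, ?_⟩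
  have h1 : S.map w = 𝟙 (S.obj A) := S.map_id w fA (funext hw)
  rw [h1, Category.id_comp]
  simp only [Iso.trans_hom, Iso.symm_hom, whiskerRightIso_hom, Category.assoc, comp_whiskerRight,
    hom_inv_whiskerRight_assoc]

theorem VV.one (hp : p ≠ 1) (w : Map Pn Pn) (hw : ∀ a, w.toFun a = a) : VV X p t w :=
  VV.ident hp (n := 0) (Homeomorph.homeomorphOfUnique Unit (Fin 0 → ℝ)) w hw

/-- the product with the identity of `ℝⁿ` -/
theorem VV.susp (hp : p.Prime) {A C : Space} {v : Map A C} (hv : VV X p t v) (n : ℕ)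
    (w : Map (A.prod (Rn n)) (C.prod (Rn n)))
    (hw : ∀ a y, w.toFun (smash a y) = smash (v.toFun a) y) : VV X p t w :=
  hv.prod hp (VV.ident (A := Rn n) hp.ne_one (Homeomorph.refl _)
    (homeoMap (X := Rn n) (Homeomorph.refl _)) homeoMap_refl) w (by
      intro a y
      rw [homeoMap_refl]
      exact hw a y)

/-- the class of maps `m v_t^N` in the equivariant files -/
def tclass (X : Ctx S) (p t : ℕ) (hp : p.Prime) : H808.TClass where
  mem {A C} v := VV X p t (ofHom (X := ofLC A) (Y := ofLC C) v)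
  one := VV.one hp.ne_one _ fun _ => rfl
  mul {A C A' C' v v'} hv hv' := hv.prod hp hv' _ fun a a' =>
    Vale.Agent.P251.G.LC.app_tensorHom_smash v v' a a'

end

end Vale.Agent.P241.R
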